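import Mathlib

/-!
# Computability of rational arithmetic (for Mathlib's `Primcodable ℚ`)

Mathlib's `Primcodable ℚ` instance comes from `Denumerable ℚ`, built by
`Denumerable.ofEncodableOfInfinite`: the code of `q` is the *rank* of its natural code
`Nat.pair (encode q.num) q.den` among all such codes.  We show that numerator/denominator
extraction and fraction formation are computable for this coding, and deduce that the field
operations of `ℚ` are `Computable`.
-/

namespace Crest.Agent.Helper2.QComp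

open Encodable Denumerable

/-- The natural (non-rank) code of a rational. -/
def base (q : ℚ) : ℕ := @Encodable.encode ℚ Rat.instEncodable q

theorem base_eq (q : ℚ) : base q = Nat.pair (Encodable.encode q.num) q.den := rfl

theorem base_injective : Function.Injective base :=
  @Encodable.encode_injective ℚ Rat.instEncodable

/-- Absolute value of the integer with code `c`. -/
def zabs (c : ℕ) : ℕ := if c % 2 = 0 then c / 2 else c / 2 + 1

/-- Positive part of the integer with code `c`. -/
def zpos (c : ℕ) : ℕ := if c % 2 = 0 then c / 2 else 0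

/-- Negative part of the integer with code `c`. -/
def zneg (c : ℕ) : ℕ := if c % 2 = 0 then 0 else c / 2 + 1

/-- The code of the integer `p - m`. -/
def zcode (p m : ℕ) : ℕ := if m ≤ p then 2 * (p - m) else 2 * (m - p) - 1

theorem encode_int_ofNat (n : ℕ) : Encodable.encode (n : ℤ) = 2 * n := by
  show Equiv.intEquivNat (n : ℤ) = 2 * n
  simp [Equiv.intEquivNat, Equiv.intEquivNatSumNat, Equiv.natSumNatEquivNat]
  rfl

theorem encode_int_negSucc (n : ℕ) : Encodable.encode (Int.negSucc n) = 2 * n + 1 := by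
  show Equiv.intEquivNat (Int.negSucc n) = 2 * n + 1
  simp [Equiv.intEquivNat, Equiv.intEquivNatSumNat, Equiv.natSumNatEquivNat]

theorem zabs_encode (z : ℤ) : zabs (Encodable.encode z) = z.natAbs := by
  cases z with
  | ofNat n => rw [Int.ofNat_eq_natCast, encode_int_ofNat]; simp [zabs]
  | negSucc n =>
    rw [encode_int_negSucc]
    simp only [zabs, Int.natAbs_negSucc]
    have h1 : (2 * n + 1) % 2 = 1 := by omega
    have h2 : (2 * n + 1) / 2 = n := by omega
    simp [h1, h2]

theorem zpos_encode (z : ℤ) : zpos (Encodable.encode z) = z.toNat := by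
  cases z with
  | ofNat n => rw [Int.ofNat_eq_natCast, encode_int_ofNat]; simp [zpos]
  | negSucc n =>
    rw [encode_int_negSucc]
    have h1 : (2 * n + 1) % 2 = 1 := by omega
    simp [zpos, h1]

theorem zneg_encode (z : ℤ) : zneg (Encodable.encode z) = (-z).toNat := by
  cases z with
  | ofNat n => rw [Int.ofNat_eq_natCast, encode_int_ofNat]; simp [zneg]
  | negSucc n =>
    rw [encode_int_negSucc]
    have h1 : (2 * n + 1) % 2 = 1 := by omega
    have h2 : (2 * n + 1) / 2 = n := by omega
    simp [zneg, h1, h2, Int.neg_negSucc]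

theorem encode_int_sub (p m : ℕ) : Encodable.encode ((p : ℤ) - m) = zcode p m := by
  unfold zcode
  split_ifs with h
  · have : ((p : ℤ) - m) = ((p - m : ℕ) : ℤ) := by omega
    rw [this, encode_int_ofNat]
  · have h' : p < m := not_le.mp h
    have : ((p : ℤ) - m) = Int.negSucc (m - p - 1) := by
      rw [Int.negSucc_eq]; omega
    rw [this, encode_int_negSucc]; omega

/-- Membership in the range of `base`. -/
def InS (k : ℕ) : Prop := 0 < k.unpair.2 ∧ Nat.gcd (zabs k.unpair.1) k.unpair.2 = 1

instance : DecidablePred InS := fun k => by unfold InS; infer_instance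

theorem mem_range_base_iff (k : ℕ) : k ∈ Set.range base ↔ InS k := by
  constructor
  · rintro ⟨q, rfl⟩
    rw [base_eq]
    simp only [InS, Nat.unpair_pair]
    refine ⟨q.den_pos, ?_⟩
    rw [zabs_encode]
    exact q.reduced
  · rintro ⟨h1, h2⟩
    refine ⟨⟨Denumerable.ofNat ℤ k.unpair.1, k.unpair.2, h1.ne', ?_⟩, ?_⟩
    · rw [← zabs_encode, Denumerable.encode_ofNat]; exact h2
    · rw [base_eq]
      simp only [Denumerable.encode_ofNat]
      exact Nat.pair_unpair k

/-- The rank of `k` among the valid codes. -/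
def rank (k : ℕ) : ℕ := (List.range k).countP (fun j => decide (InS j))

/-- The rank code of a rational: the code used by `Primcodable ℚ`. -/
def enc (q : ℚ) : ℕ := @Encodable.encode ℚ Primcodable.toEncodable q

attribute [local instance] Encodable.decidableRangeEncode in
theorem encode_rat (q : ℚ) : enc q = rank (base q) := by
  have h : enc q
      = (List.range (base q)).countP
          (fun k => decide (k ∈ Set.range (@Encodable.encode ℚ Rat.instEncodable))) := rfl
  rw [h, rank]
  congr 1
  funext k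
  exact decide_eq_decide.mpr (mem_range_base_iff k)

theorem primrec_gcd : Primrec₂ Nat.gcd := by
  have hdvd : PrimrecRel (fun (g a : ℕ) => g ∣ a) := by
    have : PrimrecRel (fun (g a : ℕ) => a % g = 0) :=
      Primrec.eq.comp (Primrec.nat_mod.comp Primrec.snd Primrec.fst) (Primrec.const 0)
    exact this.of_eq fun g a => (Nat.dvd_iff_mod_eq_zero).symm
  have hp : PrimrecRel (fun (x : ℕ × ℕ) (g : ℕ) => g ∣ x.1 ∧ g ∣ x.2) :=
    PrimrecPred.and (hdvd.comp Primrec.snd (Primrec.fst.comp Primrec.fst))
      (hdvd.comp Primrec.snd (Primrec.snd.comp Primrec.fst))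
  have h := Primrec.nat_findGreatest (f := fun x : ℕ × ℕ => x.1 + x.2)
    (Primrec.nat_add.comp Primrec.fst Primrec.snd) hp
  refine h.of_eq fun x => ?_
  obtain ⟨a, b⟩ := x
  show Nat.findGreatest (fun g => g ∣ a ∧ g ∣ b) (a + b) = Nat.gcd a b
  rw [Nat.findGreatest_eq_iff]
  refine ⟨?_, ?_, ?_⟩
  · rcases Nat.eq_zero_or_pos a with ha | ha
    · subst ha; simp
    · exact (Nat.le_of_dvd ha (Nat.gcd_dvd_left a b)).trans (Nat.le_add_right a b)
  · intro _
    exact ⟨Nat.gcd_dvd_left a b, Nat.gcd_dvd_right a b⟩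
  · intro n hn _ hdiv
    have hle : n ∣ Nat.gcd a b := Nat.dvd_gcd hdiv.1 hdiv.2
    rcases Nat.eq_zero_or_pos (Nat.gcd a b) with h0 | hpos
    · rw [h0] at hn
      have hab : a = 0 ∧ b = 0 := Nat.gcd_eq_zero_iff.mp h0
      omega
    · exact absurd (Nat.le_of_dvd hpos hle) (not_le.mpr hn)

theorem primrec_zabs : Primrec zabs := by
  unfold zabs
  exact Primrec.ite
    (Primrec.eq.comp (Primrec.nat_mod.comp Primrec.id (Primrec.const 2)) (Primrec.const 0))
    (Primrec.nat_div.comp Primrec.id (Primrec.const 2))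
    (Primrec.succ.comp (Primrec.nat_div.comp Primrec.id (Primrec.const 2)))

theorem primrec_zpos : Primrec zpos := by
  unfold zpos
  exact Primrec.ite
    (Primrec.eq.comp (Primrec.nat_mod.comp Primrec.id (Primrec.const 2)) (Primrec.const 0))
    (Primrec.nat_div.comp Primrec.id (Primrec.const 2))
    (Primrec.const 0)

theorem primrec_zneg : Primrec zneg := by
  unfold zneg
  exact Primrec.ite
    (Primrec.eq.comp (Primrec.nat_mod.comp Primrec.id (Primrec.const 2)) (Primrec.const 0))
    (Primrec.const 0)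
    (Primrec.succ.comp (Primrec.nat_div.comp Primrec.id (Primrec.const 2)))

theorem primrec_zcode : Primrec₂ zcode := by
  unfold zcode
  exact Primrec.ite (Primrec.nat_le.comp Primrec.snd Primrec.fst)
    (Primrec.nat_mul.comp (Primrec.const 2) (Primrec.nat_sub.comp Primrec.fst Primrec.snd))
    (Primrec.nat_sub.comp
      (Primrec.nat_mul.comp (Primrec.const 2) (Primrec.nat_sub.comp Primrec.snd Primrec.fst))
      (Primrec.const 1))

theorem primrecPred_InS : PrimrecPred InS := by
  unfold InS
  exact PrimrecPred.and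
    (Primrec.nat_lt.comp (Primrec.const 0) (Primrec.snd.comp Primrec.unpair))
    (Primrec.eq.comp
      (primrec_gcd.comp (primrec_zabs.comp (Primrec.fst.comp Primrec.unpair))
        (Primrec.snd.comp Primrec.unpair))
      (Primrec.const 1))

theorem primrec_rank : Primrec rank := by
  have h : Primrec (fun k : ℕ => ((List.range k).filter (fun j => decide (InS j))).length) :=
    Primrec.list_length.comp ((Primrec.listFilter primrecPred_InS).comp Primrec.list_range)
  exact h.of_eq fun k => by rw [rank, List.countP_eq_length_filter]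

/-- The natural code of the `n`-th rational is computable. -/
theorem computable_base_ofNat : Computable (fun n : ℕ => base (Denumerable.ofNat ℚ n)) := by
  have hp : Computable₂ (fun (n k : ℕ) => decide (InS k ∧ rank k = n)) := by
    have : PrimrecRel (fun (n k : ℕ) => InS k ∧ rank k = n) :=
      PrimrecPred.and (primrecPred_InS.comp Primrec.snd)
        (Primrec.eq.comp (primrec_rank.comp Primrec.snd) Primrec.fst)
    exact this.decide.to_comp
  have hr : Partrec (fun n : ℕ =>
      Nat.rfind ((fun k => decide (InS k ∧ rank k = n) : ℕ → Bool) : ℕ →. Bool)) :=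
    Partrec.rfind hp.partrec₂
  refine hr.of_eq_tot fun n => ?_
  rw [Nat.mem_rfind]
  have hk0 : InS (base (Denumerable.ofNat ℚ n)) :=
    (mem_range_base_iff _).mp ⟨_, rfl⟩
  have hrk : rank (base (Denumerable.ofNat ℚ n)) = n := by
    rw [← encode_rat]; exact Denumerable.encode_ofNat n
  refine ⟨?_, ?_⟩
  · rw [PFun.coe_val, Part.mem_some_iff]
    exact (decide_eq_true ⟨hk0, hrk⟩).symm
  · intro m hm
    simp only [PFun.coe_val, Part.mem_some_iff]
    symm
    rw [decide_eq_false_iff_not]
    rintro ⟨hS, hrank⟩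
    obtain ⟨q, rfl⟩ := (mem_range_base_iff m).mpr hS
    rw [← encode_rat] at hrank
    have : q = Denumerable.ofNat ℚ n := by rw [← hrank]; exact (Denumerable.ofNat_encode q).symm
    rw [this] at hm
    exact lt_irrefl _ hm

/-- A function on `ℚ` that factors computably through the natural code is computable. -/
theorem computable_of_base {β : Type*} [Primcodable β] (f : ℚ → β) (F : ℕ → β)
    (hF : Computable F) (h : ∀ q, f q = F (base q)) : Computable f := by
  have h1 : Computable (fun q : ℚ => F (base (Denumerable.ofNat ℚ (enc q)))) :=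
    hF.comp (computable_base_ofNat.comp Computable.encode)
  exact h1.of_eq fun q => by
    have : Denumerable.ofNat ℚ (enc q) = q := Denumerable.ofNat_encode q
    rw [this, h]

/-- A function into `ℚ` whose natural code is computable is computable. -/
theorem computable_to_rat {β : Type*} [Primcodable β] (f : β → ℚ)
    (hf : Computable (fun b => base (f b))) : Computable f := by
  refine Computable.encode_iff.1 ?_
  exact (primrec_rank.to_comp.comp hf).of_eq fun b => (encode_rat (f b)).symm

/-- Numerator (as positive and negative parts) and denominator are computable. -/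
theorem rat_num_den : Computable (fun q : ℚ => (q.num.toNat, (-q.num).toNat, q.den)) := by
  have hF : Primrec (fun k : ℕ => (zpos k.unpair.1, zneg k.unpair.1, k.unpair.2)) :=
    (primrec_zpos.comp (Primrec.fst.comp Primrec.unpair)).pair
      ((primrec_zneg.comp (Primrec.fst.comp Primrec.unpair)).pair
        (Primrec.snd.comp Primrec.unpair))
  refine computable_of_base _ _ hF.to_comp fun q => ?_
  simp only [base_eq, Nat.unpair_pair, zpos_encode, zneg_encode]

/-- The natural code of `(p - m) / d`. -/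
def mkBase (x : ℕ × ℕ × ℕ) : ℕ :=
  if x.2.2 = 0 then Nat.pair 0 1
  else
    Nat.pair
      (zcode ((x.1 - x.2.1) / Nat.gcd ((x.1 - x.2.1) + (x.2.1 - x.1)) x.2.2)
        ((x.2.1 - x.1) / Nat.gcd ((x.1 - x.2.1) + (x.2.1 - x.1)) x.2.2))
      (x.2.2 / Nat.gcd ((x.1 - x.2.1) + (x.2.1 - x.1)) x.2.2)

theorem primrec_mkBase : Primrec mkBase := by
  unfold mkBase
  have hp : Primrec (fun x : ℕ × ℕ × ℕ => x.1 - x.2.1) :=
    Primrec.nat_sub.comp Primrec.fst (Primrec.fst.comp Primrec.snd)
  have hm : Primrec (fun x : ℕ × ℕ × ℕ => x.2.1 - x.1) :=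
    Primrec.nat_sub.comp (Primrec.fst.comp Primrec.snd) Primrec.fst
  have hd : Primrec (fun x : ℕ × ℕ × ℕ => x.2.2) := Primrec.snd.comp Primrec.snd
  have hg : Primrec (fun x : ℕ × ℕ × ℕ => Nat.gcd ((x.1 - x.2.1) + (x.2.1 - x.1)) x.2.2) :=
    primrec_gcd.comp (Primrec.nat_add.comp hp hm) hd
  exact Primrec.ite (Primrec.eq.comp hd (Primrec.const 0)) (Primrec.const _)
    (Primrec₂.natPair.comp
      (primrec_zcode.comp (Primrec.nat_div.comp hp hg) (Primrec.nat_div.comp hm hg))
      (Primrec.nat_div.comp hd hg))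

theorem base_mk (x : ℕ × ℕ × ℕ) : base (((x.1 : ℚ) - x.2.1) / x.2.2) = mkBase x := by
  obtain ⟨p, m, d⟩ := x
  simp only
  unfold mkBase
  simp only
  split_ifs with hd
  · subst hd
    have h0 : Encodable.encode (0 : ℤ) = 0 := by simpa using encode_int_ofNat 0
    simp [base_eq, h0]
  · set g := Nat.gcd ((p - m) + (m - p)) d with hg
    have hdpos : 0 < d := Nat.pos_of_ne_zero hd
    have hgpos : 0 < g := Nat.gcd_pos_of_pos_right _ hdpos
    have hgd : g ∣ d := Nat.gcd_dvd_right _ _
    have hga : g ∣ (p - m) + (m - p) := Nat.gcd_dvd_left _ _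
    have hgp : g ∣ (p - m) := by
      rcases le_total p m with h | h
      · simp [Nat.sub_eq_zero_of_le h]
      · simpa [Nat.sub_eq_zero_of_le h] using hga
    have hgm : g ∣ (m - p) := by
      rcases le_total p m with h | h
      · simpa [Nat.sub_eq_zero_of_le h] using hga
      · simp [Nat.sub_eq_zero_of_le h]
    set P := (p - m) / g with hP
    set M := (m - p) / g with hM
    set D := d / g with hD
    have hPg : P * g = p - m := Nat.div_mul_cancel hgp
    have hMg : M * g = m - p := Nat.div_mul_cancel hgm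
    have hDg : D * g = d := Nat.div_mul_cancel hgd
    have hDpos : 0 < D := Nat.div_pos (Nat.le_of_dvd hdpos hgd) hgpos
    have hcop : Nat.Coprime (P + M) D := by
      have h1 : (P + M) * g = (p - m) + (m - p) := by rw [add_mul, hPg, hMg]
      have h2 : Nat.gcd ((P + M) * g) (D * g) = g := by rw [h1, hDg]
      rw [Nat.gcd_mul_right] at h2
      have : Nat.gcd (P + M) D * g = 1 * g := by rw [h2, one_mul]
      exact Nat.eq_of_mul_eq_mul_right hgpos this
    have hPM : P = 0 ∨ M = 0 := by
      rcases le_total p m with h | h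
      · left; rw [hP, Nat.sub_eq_zero_of_le h, Nat.zero_div]
      · right; rw [hM, Nat.sub_eq_zero_of_le h, Nat.zero_div]
    have hval : ((p : ℚ) - m) / d = (((P : ℤ) - M : ℤ) : ℚ) / ((D : ℤ) : ℚ) := by
      have hgq : (g : ℚ) ≠ 0 := Nat.cast_ne_zero.mpr hgpos.ne'
      have hDq : (D : ℚ) ≠ 0 := Nat.cast_ne_zero.mpr hDpos.ne'
      have hdq : (d : ℚ) ≠ 0 := Nat.cast_ne_zero.mpr hd
      have e1 : (p : ℚ) - m = ((P : ℚ) - M) * g := by
        have : ((p : ℤ) - m) = ((p - m : ℕ) : ℤ) - ((m - p : ℕ) : ℤ) := by omega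
        have h3 : (p : ℚ) - m = ((p - m : ℕ) : ℚ) - ((m - p : ℕ) : ℚ) := by exact_mod_cast this
        rw [h3, ← hPg, ← hMg]; push_cast; ring
      have e2 : (d : ℚ) = (D : ℚ) * g := by rw [← hDg]; push_cast; ring
      rw [e1, e2]
      push_cast
      field_simp
    have hnat : ((P : ℤ) - M).natAbs = P + M := by
      rcases hPM with h | h <;> simp [h]
    have hnum : (((p : ℚ) - m) / d).num = (P : ℤ) - M := by
      rw [hval]
      apply Rat.num_div_eq_of_coprime (by exact_mod_cast hDpos)
      rw [hnat]; simpa using hcop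
    have hden : (((p : ℚ) - m) / d).den = D := by
      rw [hval]
      have := Rat.den_div_eq_of_coprime (a := (P : ℤ) - M) (b := (D : ℤ))
        (by exact_mod_cast hDpos) (by rw [hnat]; simpa using hcop)
      exact_mod_cast this
    rw [base_eq, hnum, hden, encode_int_sub]

/-- Forming `(p - m) / d` is computable. -/
theorem rat_mk : Computable (fun x : ℕ × ℕ × ℕ => ((x.1 : ℚ) - x.2.1) / x.2.2) :=
  computable_to_rat _ (primrec_mkBase.to_comp.of_eq fun x => (base_mk x).symm)

/-! ### Field operations -/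

theorem nd_spec (q : ℚ) :
    ((q.num.toNat : ℚ) - ((-q.num).toNat : ℚ)) / (q.den : ℚ) = q := by
  have h : ((q.num.toNat : ℤ) - ((-q.num).toNat : ℤ)) = q.num := Int.toNat_sub_toNat_neg q.num
  have h2 : ((q.num.toNat : ℚ) - ((-q.num).toNat : ℚ)) = (q.num : ℚ) := by exact_mod_cast h
  rw [h2, Rat.num_div_den]

theorem nd_zero (q : ℚ) : q.num.toNat = 0 ∨ (-q.num).toNat = 0 := by
  rcases le_total q.num 0 with h | h
  · left; exact Int.toNat_eq_zero.mpr h
  · right; exact Int.toNat_eq_zero.mpr (by omega)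

section
variable {α : Type*} [Primcodable α]

private theorem pmul {f g : α → ℕ} (hf : Primrec f) (hg : Primrec g) :
    Primrec (fun x => f x * g x) := Primrec.nat_mul.comp hf hg

private theorem padd {f g : α → ℕ} (hf : Primrec f) (hg : Primrec g) :
    Primrec (fun x => f x + g x) := Primrec.nat_add.comp hf hg

end

private abbrev T3 := ℕ × ℕ × ℕ

private theorem a1 : Primrec (fun x : T3 × T3 => x.1.1) := Primrec.fst.comp Primrec.fst
private theorem a2 : Primrec (fun x : T3 × T3 => x.1.2.1) :=
  Primrec.fst.comp (Primrec.snd.comp Primrec.fst)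
private theorem a3 : Primrec (fun x : T3 × T3 => x.1.2.2) :=
  Primrec.snd.comp (Primrec.snd.comp Primrec.fst)
private theorem b1 : Primrec (fun x : T3 × T3 => x.2.1) := Primrec.fst.comp Primrec.snd
private theorem b2 : Primrec (fun x : T3 × T3 => x.2.2.1) :=
  Primrec.fst.comp (Primrec.snd.comp Primrec.snd)
private theorem b3 : Primrec (fun x : T3 × T3 => x.2.2.2) :=
  Primrec.snd.comp (Primrec.snd.comp Primrec.snd)

/-- The pair of numerator/denominator triples of two rationals. -/
private theorem nd_pair : Computable (fun x : ℚ × ℚ =>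
    ((x.1.num.toNat, (-x.1.num).toNat, x.1.den), (x.2.num.toNat, (-x.2.num).toNat, x.2.den))) :=
  (rat_num_den.comp Computable.fst).pair (rat_num_den.comp Computable.snd)

theorem rat_add : Computable₂ (fun a b : ℚ => a + b) := by
  have hG : Primrec (fun x : T3 × T3 =>
      (x.1.1 * x.2.2.2 + x.2.1 * x.1.2.2, x.1.2.1 * x.2.2.2 + x.2.2.1 * x.1.2.2,
        x.1.2.2 * x.2.2.2)) :=
    (padd (pmul a1 b3) (pmul b1 a3)).pair ((padd (pmul a2 b3) (pmul b2 a3)).pair (pmul a3 b3))
  have h := rat_mk.comp (hG.to_comp.comp nd_pair)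
  refine h.of_eq fun x => ?_
  obtain ⟨a, b⟩ := x
  simp only
  have ha := nd_spec a
  have hb := nd_spec b
  have hda : (a.den : ℚ) ≠ 0 := Nat.cast_ne_zero.mpr a.den_ne_zero
  have hdb : (b.den : ℚ) ≠ 0 := Nat.cast_ne_zero.mpr b.den_ne_zero
  conv_rhs => rw [← ha, ← hb]
  push_cast
  field_simp
  ring

theorem rat_mul : Computable₂ (fun a b : ℚ => a * b) := by
  have hG : Primrec (fun x : T3 × T3 =>
      (x.1.1 * x.2.1 + x.1.2.1 * x.2.2.1, x.1.1 * x.2.2.1 + x.1.2.1 * x.2.1,
        x.1.2.2 * x.2.2.2)) :=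
    (padd (pmul a1 b1) (pmul a2 b2)).pair ((padd (pmul a1 b2) (pmul a2 b1)).pair (pmul a3 b3))
  have h := rat_mk.comp (hG.to_comp.comp nd_pair)
  refine h.of_eq fun x => ?_
  obtain ⟨a, b⟩ := x
  simp only
  have ha := nd_spec a
  have hb := nd_spec b
  have hda : (a.den : ℚ) ≠ 0 := Nat.cast_ne_zero.mpr a.den_ne_zero
  have hdb : (b.den : ℚ) ≠ 0 := Nat.cast_ne_zero.mpr b.den_ne_zero
  conv_rhs => rw [← ha, ← hb]
  push_cast
  field_simp
  ring

theorem rat_neg : Computable (fun a : ℚ => -a) := by
  have hG : Primrec (fun x : T3 => (x.2.1, x.1, x.2.2)) :=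
    (Primrec.fst.comp Primrec.snd).pair (Primrec.fst.pair (Primrec.snd.comp Primrec.snd))
  have h := rat_mk.comp (hG.to_comp.comp rat_num_den)
  refine h.of_eq fun a => ?_
  simp only
  have ha := nd_spec a
  conv_rhs => rw [← ha]
  ring

theorem rat_sub : Computable₂ (fun a b : ℚ => a - b) := by
  have h : Computable (fun x : ℚ × ℚ => x.1 + -x.2) :=
    rat_add.comp Computable.fst (rat_neg.comp Computable.snd)
  exact h.of_eq fun x => by ring

theorem rat_natCast : Computable (fun n : ℕ => (n : ℚ)) := by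
  have hG : Primrec (fun n : ℕ => ((n, 0, 1) : T3)) :=
    Primrec.id.pair ((Primrec.const 0).pair (Primrec.const 1))
  have h := rat_mk.comp hG.to_comp
  exact h.of_eq fun n => by simp

theorem rat_inv : Computable (fun a : ℚ => a⁻¹) := by
  have hG : Primrec (fun x : T3 =>
      ((if x.1 = 0 then 0 else x.2.2, if x.2.1 = 0 then 0 else x.2.2, x.1 + x.2.1) : T3)) :=
    (Primrec.ite (Primrec.eq.comp Primrec.fst (Primrec.const 0)) (Primrec.const 0)
        (Primrec.snd.comp Primrec.snd)).pair
      ((Primrec.ite (Primrec.eq.comp (Primrec.fst.comp Primrec.snd) (Primrec.const 0))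
          (Primrec.const 0) (Primrec.snd.comp Primrec.snd)).pair
        (padd Primrec.fst (Primrec.fst.comp Primrec.snd)))
  have h := rat_mk.comp (hG.to_comp.comp rat_num_den)
  refine h.of_eq fun a => ?_
  simp only
  have ha := nd_spec a
  have hda : (a.den : ℚ) ≠ 0 := Nat.cast_ne_zero.mpr a.den_ne_zero
  conv_rhs => rw [← ha]
  rcases nd_zero a with h0 | h0
  · rw [h0]
    by_cases hm : (-a.num).toNat = 0
    · simp [hm]
    · have hmq : (((-a.num).toNat : ℕ) : ℚ) ≠ 0 := Nat.cast_ne_zero.mpr hm
      simp only [hm, if_false, if_true, Nat.cast_zero, zero_sub, zero_add]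
      field_simp
  · rw [h0]
    by_cases hp : a.num.toNat = 0
    · simp [hp]
    · have hpq : ((a.num.toNat : ℕ) : ℚ) ≠ 0 := Nat.cast_ne_zero.mpr hp
      simp only [hp, if_false, if_true, Nat.cast_zero, sub_zero, add_zero]
      field_simp

theorem rat_div : Computable₂ (fun a b : ℚ => a / b) := by
  have h : Computable (fun x : ℚ × ℚ => x.1 * x.2⁻¹) :=
    rat_mul.comp Computable.fst (rat_inv.comp Computable.snd)
  exact h.of_eq fun x => (div_eq_mul_inv _ _).symm

theorem rat_le : Computable₂ (fun a b : ℚ => decide (a ≤ b)) := by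
  have hG : PrimrecPred (fun x : T3 × T3 =>
      x.1.1 * x.2.2.2 + x.2.2.1 * x.1.2.2 ≤ x.2.1 * x.1.2.2 + x.1.2.1 * x.2.2.2) :=
    Primrec.nat_le.comp (padd (pmul a1 b3) (pmul b2 a3)) (padd (pmul b1 a3) (pmul a2 b3))
  have h := hG.decide.to_comp.comp nd_pair
  refine h.of_eq fun x => ?_
  obtain ⟨a, b⟩ := x
  simp only
  apply decide_eq_decide.mpr
  have ha := nd_spec a
  have hb := nd_spec b
  have hda : (0 : ℚ) < (a.den : ℚ) := Nat.cast_pos.mpr a.den_pos
  have hdb : (0 : ℚ) < (b.den : ℚ) := Nat.cast_pos.mpr b.den_pos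
  conv_rhs => rw [← ha, ← hb]
  rw [div_le_div_iff₀ hda hdb]
  constructor
  · intro h
    have h' : ((a.num.toNat * b.den + (-b.num).toNat * a.den : ℕ) : ℚ)
        ≤ ((b.num.toNat * a.den + (-a.num).toNat * b.den : ℕ) : ℚ) := by exact_mod_cast h
    push_cast at h'
    linarith
  · intro h
    have h' : ((a.num.toNat * b.den + (-b.num).toNat * a.den : ℕ) : ℚ)
        ≤ ((b.num.toNat * a.den + (-a.num).toNat * b.den : ℕ) : ℚ) := by
      push_cast
      linarith
    exact_mod_cast h'

theorem rat_lt : Computable₂ (fun a b : ℚ => decide (a < b)) := by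
  have h : Computable (fun x : ℚ × ℚ => !decide (x.2 ≤ x.1)) :=
    (Primrec.not.to_comp).comp (rat_le.comp Computable.snd Computable.fst)
  refine h.of_eq fun x => ?_
  show (!decide (x.2 ≤ x.1)) = decide (x.1 < x.2)
  by_cases hx : x.2 ≤ x.1
  · simp [hx, not_lt.mpr hx]
  · simp [hx, not_le.mp hx]

/-- `|q| ≤ q.num.natAbs`, and the latter is computable. -/
theorem rat_natAbs_num : Computable (fun q : ℚ => q.num.natAbs) := by
  have hG : Primrec (fun x : T3 => x.1 + x.2.1) := padd Primrec.fst (Primrec.fst.comp Primrec.snd)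
  have h := hG.to_comp.comp rat_num_den
  refine h.of_eq fun q => ?_
  simp only
  omega

theorem rat_den : Computable (fun q : ℚ => q.den) :=
  (Computable.snd.comp (Computable.snd.comp rat_num_den))

theorem abs_le_natAbs_num (q : ℚ) : |q| ≤ (q.num.natAbs : ℚ) := by
  have h1 : |q| = (q.num.natAbs : ℚ) / (q.den : ℚ) := by
    conv_lhs => rw [← Rat.num_div_den q]
    rw [abs_div, Nat.abs_cast]
    congr 1
    rw [← Int.cast_abs, Int.abs_eq_natAbs]
    simp
  rw [h1]
  have hd : (1 : ℚ) ≤ (q.den : ℚ) := by exact_mod_cast q.den_pos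
  exact div_le_self (Nat.cast_nonneg _) hd

theorem rat_ceil_abs : Computable (fun q : ℚ => ⌈|q|⌉₊) := by
  have hG : Primrec (fun x : T3 => (x.1 + x.2.1 + (x.2.2 - 1)) / x.2.2) :=
    Primrec.nat_div.comp
      (padd (padd Primrec.fst (Primrec.fst.comp Primrec.snd))
        (Primrec.nat_sub.comp (Primrec.snd.comp Primrec.snd) (Primrec.const 1)))
      (Primrec.snd.comp Primrec.snd)
  have h := hG.to_comp.comp rat_num_den
  refine h.of_eq fun q => ?_
  simp only
  have hd : 0 < q.den := q.den_pos
  have hN : q.num.toNat + (-q.num).toNat = q.num.natAbs := by omega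
  rw [hN]
  have h1 : |q| = (q.num.natAbs : ℚ) / (q.den : ℚ) := by
    conv_lhs => rw [← Rat.num_div_den q]
    rw [abs_div, Nat.abs_cast]
    congr 1
    rw [← Int.cast_abs, Int.abs_eq_natAbs]
    simp
  rw [h1]
  apply le_antisymm
  · apply Nat.le_of_lt_succ
    rw [Nat.div_lt_iff_lt_mul hd]
    have hc : (q.num.natAbs : ℚ) / (q.den : ℚ) ≤ (⌈(q.num.natAbs : ℚ) / (q.den : ℚ)⌉₊ : ℚ) :=
      Nat.le_ceil _
    have hdq : (0 : ℚ) < (q.den : ℚ) := Nat.cast_pos.mpr hd
    rw [div_le_iff₀ hdq] at hc
    have hc' : q.num.natAbs ≤ ⌈(q.num.natAbs : ℚ) / (q.den : ℚ)⌉₊ * q.den := by exact_mod_cast hc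
    have : q.num.natAbs + (q.den - 1) < ⌈(q.num.natAbs : ℚ) / (q.den : ℚ)⌉₊ * q.den + q.den := by
      omega
    calc q.num.natAbs + (q.den - 1) < ⌈(q.num.natAbs : ℚ) / (q.den : ℚ)⌉₊ * q.den + q.den := this
      _ = (⌈(q.num.natAbs : ℚ) / (q.den : ℚ)⌉₊ + 1) * q.den := by ring
  · rw [Nat.ceil_le]
    have hdq : (0 : ℚ) < (q.den : ℚ) := Nat.cast_pos.mpr hd
    rw [div_le_iff₀ hdq]
    have h2 : q.num.natAbs ≤ (q.num.natAbs + (q.den - 1)) / q.den * q.den := by
      have h3 := Nat.div_add_mod (q.num.natAbs + (q.den - 1)) q.den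
      have h4 := Nat.mod_lt (q.num.natAbs + (q.den - 1)) hd
      have h5 : q.den * ((q.num.natAbs + (q.den - 1)) / q.den)
          = (q.num.natAbs + (q.den - 1)) / q.den * q.den := Nat.mul_comm _ _
      omega
    exact_mod_cast h2

end Crest.Agent.Helper2.QComp
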