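import Mathlib
import Crest.Prelude.Def_TruncExpWeight

set_option autoImplicit false

open MeasureTheory Set

namespace Crest.Agent.Helper2

/-- Survival function `P(∑ a_i X_i > t)` of a linear combination of iid `Exp(1)` variables,
written as an integral over the positive orthant. -/
noncomputable def surv (N : ℕ) (a : Fin N → ℝ) (t : ℝ) : ℝ :=
  ∫ x in Set.pi Set.univ (fun _ : Fin N => Set.Ioi (0:ℝ)),
    (if t < ∑ i, a i * x i then (1:ℝ) else 0) * Real.exp (-∑ i, x i)

/-- The kernel `(t + 4/3) e^{-(t+4/3)}` on `t > -4/3`. -/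
noncomputable def kern (t : ℝ) : ℝ :=
  if t ≤ -(4/3) then 0 else (t + 4/3) * Real.exp (-(t + 4/3))

/-- the measure on the orthant is a product measure -/
theorem restrict_orthant (N : ℕ) :
    (volume : Measure (Fin N → ℝ)).restrict (Set.pi Set.univ (fun _ : Fin N => Set.Ioi (0:ℝ)))
      = Measure.pi (fun _ : Fin N => (volume : Measure ℝ).restrict (Set.Ioi 0)) := by
  rw [volume_pi]
  exact Measure.restrict_pi_pi _ _

theorem exp_neg_sum (N : ℕ) (x : Fin N → ℝ) :
    Real.exp (-∑ i, x i) = ∏ i, Real.exp (-x i) := by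
  rw [← Finset.sum_neg_distrib, Real.exp_sum]

theorem integrable_exp_orthant (N : ℕ) :
    Integrable (fun x : Fin N → ℝ => Real.exp (-∑ i, x i))
      (Measure.pi (fun _ : Fin N => (volume : Measure ℝ).restrict (Set.Ioi 0))) := by
  simp_rw [exp_neg_sum]
  exact Integrable.fintype_prod (fun _ => integrableOn_exp_neg_Ioi 0)

theorem integral_exp_orthant (N : ℕ) :
    ∫ x : Fin N → ℝ, Real.exp (-∑ i, x i)
      ∂(Measure.pi (fun _ : Fin N => (volume : Measure ℝ).restrict (Set.Ioi 0))) = 1 := by
  simp_rw [exp_neg_sum]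
  rw [integral_fintype_prod_eq_prod (fun _ : Fin N => fun x : ℝ => Real.exp (-x))]
  simp only [integral_exp_neg_Ioi_zero, Finset.prod_const_one]

/-- peeling off the first coordinate -/
theorem integral_pi_succ (n : ℕ) (f : (Fin (n+1) → ℝ) → ℝ)
    (hf : Integrable f (Measure.pi (fun _ : Fin (n+1) => (volume : Measure ℝ).restrict (Set.Ioi 0)))) :
    ∫ x, f x ∂(Measure.pi (fun _ : Fin (n+1) => (volume : Measure ℝ).restrict (Set.Ioi 0)))
      = ∫ s in Set.Ioi (0:ℝ), ∫ y, f (Fin.cons s y)
          ∂(Measure.pi (fun _ : Fin n => (volume : Measure ℝ).restrict (Set.Ioi 0))) := by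
  have mp := (measurePreserving_piFinSuccAbove
    (fun _ : Fin (n+1) => (volume : Measure ℝ).restrict (Set.Ioi 0)) 0).symm
  rw [← mp.integral_comp']
  rw [integral_prod]
  · have key : ∀ (s : ℝ) (y : Fin n → ℝ),
        (MeasurableEquiv.piFinSuccAbove (fun _ : Fin (n+1) => ℝ) 0).symm (s, y) = Fin.cons s y := by
      intro s y
      simp [MeasurableEquiv.piFinSuccAbove_symm_apply, Fin.insertNthEquiv]
    simp_rw [key]
  · exact (mp.integrable_comp_emb (MeasurableEquiv.measurableEmbedding _)).2 hf

theorem surv_eq (N : ℕ) (a : Fin N → ℝ) (t : ℝ) :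
    surv N a t = ∫ x, (if t < ∑ i, a i * x i then (1:ℝ) else 0) * Real.exp (-∑ i, x i)
      ∂(Measure.pi (fun _ : Fin N => (volume : Measure ℝ).restrict (Set.Ioi 0))) := by
  unfold surv
  rw [restrict_orthant]

theorem measurable_ind (N : ℕ) (a : Fin N → ℝ) (t : ℝ) :
    Measurable (fun x : Fin N → ℝ => (if t < ∑ i, a i * x i then (1:ℝ) else 0)) :=
  Measurable.ite (measurableSet_lt measurable_const (by fun_prop)) measurable_const
    measurable_const

theorem integrable_ind_mul (N : ℕ) (a : Fin N → ℝ) (t : ℝ) :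
    Integrable (fun x : Fin N → ℝ =>
        (if t < ∑ i, a i * x i then (1:ℝ) else 0) * Real.exp (-∑ i, x i))
      (Measure.pi (fun _ : Fin N => (volume : Measure ℝ).restrict (Set.Ioi 0))) := by
  refine (integrable_exp_orthant N).mono' ?_ ?_
  · exact ((measurable_ind N a t).mul (by fun_prop)).aestronglyMeasurable
  · refine Filter.Eventually.of_forall (fun x => ?_)
    split_ifs <;> simp [Real.exp_nonneg]

theorem surv_zero (a : Fin 0 → ℝ) (t : ℝ) : surv 0 a t = if t < 0 then 1 else 0 := by
  rw [surv_eq]
  simp [measureReal_def]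

theorem surv_succ (n : ℕ) (a : Fin (n+1) → ℝ) (t : ℝ) :
    surv (n+1) a t
      = ∫ s in Set.Ioi (0:ℝ), surv n (Fin.tail a) (t - a 0 * s) * Real.exp (-s) := by
  rw [surv_eq, integral_pi_succ _ _ (integrable_ind_mul _ a t)]
  refine integral_congr_ae (Filter.Eventually.of_forall (fun s => ?_))
  simp only
  rw [surv_eq, ← integral_mul_const]
  refine integral_congr_ae (Filter.Eventually.of_forall (fun y => ?_))
  simp only [Fin.sum_univ_succ, Fin.cons_zero, Fin.cons_succ]
  have h1 : (t < a 0 * s + ∑ i : Fin n, a i.succ * y i) ↔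
      (t - a 0 * s < ∑ i : Fin n, Fin.tail a i * y i) := by
    simp only [Fin.tail]
    constructor <;> intro h <;> linarith
  have h2 : Real.exp (-(s + ∑ i : Fin n, y i)) = Real.exp (-∑ i : Fin n, y i) * Real.exp (-s) := by
    rw [← Real.exp_add]; ring_nf
  rw [h2]
  by_cases h : t < a 0 * s + ∑ i : Fin n, a i.succ * y i
  · rw [if_pos h, if_pos (h1.1 h)]; ring
  · rw [if_neg h, if_neg (fun h' => h (h1.2 h'))]; ring

/-! ### The kernel -/

theorem kern_nonneg (t : ℝ) : 0 ≤ kern t := by
  unfold kern
  split_ifs with h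
  · exact le_rfl
  · exact mul_nonneg (by linarith [not_le.mp h]) (Real.exp_nonneg _)

theorem measurable_kern : Measurable kern := by
  unfold kern
  exact Measurable.ite (measurableSet_le measurable_id measurable_const) measurable_const
    (by fun_prop)

/-- antiderivative of the kernel -/
noncomputable def kernPrim (t : ℝ) : ℝ := -(1 + (t + 4/3)) * Real.exp (-(t + 4/3))

theorem hasDerivAt_kernPrim (t : ℝ) :
    HasDerivAt kernPrim ((t + 4/3) * Real.exp (-(t + 4/3))) t := by
  unfold kernPrim
  have h3 : HasDerivAt (fun t : ℝ => -(t + 4/3)) (-1) t :=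
    ((hasDerivAt_id' t).add_const (4/3:ℝ)).fun_neg
  have h1 : HasDerivAt (fun t : ℝ => -(1 + (t + 4/3))) (-1) t :=
    (((hasDerivAt_id' t).add_const (4/3:ℝ)).const_add 1).fun_neg
  have h2 : HasDerivAt (fun t : ℝ => Real.exp (-(t + 4/3))) (Real.exp (-(t + 4/3)) * (-1)) t :=
    (Real.hasDerivAt_exp _).comp t h3
  exact (h1.fun_mul h2).congr_deriv (by ring)

theorem kernPrim_tendsto : Filter.Tendsto kernPrim Filter.atTop (nhds 0) := by
  have h0 := (Real.tendsto_pow_mul_exp_neg_atTop_nhds_zero 0).comp
    (Filter.tendsto_atTop_add_const_right Filter.atTop (4/3:ℝ) Filter.tendsto_id)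
  have h1 := (Real.tendsto_pow_mul_exp_neg_atTop_nhds_zero 1).comp
    (Filter.tendsto_atTop_add_const_right Filter.atTop (4/3:ℝ) Filter.tendsto_id)
  have h2 := (h0.add h1).neg
  simp only [add_zero, neg_zero] at h2
  refine h2.congr (fun t => ?_)
  simp only [Function.comp, id, kernPrim, pow_zero, pow_one]
  ring

theorem integrableOn_kern_aux :
    IntegrableOn (fun t : ℝ => (t + 4/3) * Real.exp (-(t + 4/3))) (Ioi (-(4/3))) :=
  integrableOn_Ioi_deriv_of_nonneg' (fun x _ => hasDerivAt_kernPrim x)
    (fun x hx => mul_nonneg (by have := hx.out; linarith) (Real.exp_nonneg _)) kernPrim_tendsto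

theorem kern_eq_indicator :
    kern = (Ioi (-(4/3) : ℝ)).indicator (fun t : ℝ => (t + 4/3) * Real.exp (-(t + 4/3))) := by
  funext t
  unfold kern
  by_cases h : t ≤ -(4/3)
  · rw [if_pos h, indicator_of_notMem (by simpa using h)]
  · rw [if_neg h, indicator_of_mem (by simpa using h)]

theorem integrable_kern : Integrable kern := by
  rw [kern_eq_indicator]
  exact integrableOn_kern_aux.integrable_indicator measurableSet_Ioi

theorem integral_ind_kern (u : ℝ) :
    ∫ t, (if t < u then (1:ℝ) else 0) * kern t
      = 1 - Crest.AlgGeometry.truncExpWeight (4/3 + u) := by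
  unfold Crest.AlgGeometry.truncExpWeight
  by_cases hu : u ≤ -(4/3)
  · rw [if_pos (by linarith)]
    have : ∀ t : ℝ, (if t < u then (1:ℝ) else 0) * kern t = 0 := by
      intro t
      by_cases ht : t < u
      · rw [if_pos ht]
        unfold kern
        rw [if_pos (by linarith)]
        simp
      · rw [if_neg ht]; simp
    simp [this]
  · rw [not_le] at hu
    rw [if_neg (by linarith)]
    have h1 : (fun t : ℝ => (if t < u then (1:ℝ) else 0) * kern t)
        = (Ioo (-(4/3) : ℝ) u).indicator (fun t : ℝ => (t + 4/3) * Real.exp (-(t + 4/3))) := by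
      funext t
      unfold kern
      by_cases h1 : t < u
      · by_cases h2 : t ≤ -(4/3)
        · rw [if_pos h1, if_pos h2, indicator_of_notMem (fun h => by have := h.1; linarith)]
          simp
        · rw [if_pos h1, if_neg h2, indicator_of_mem (show t ∈ Ioo (-(4/3) : ℝ) u from ⟨not_le.mp h2, h1⟩)]
          simp
      · rw [if_neg h1, indicator_of_notMem (fun h => h1 h.2)]
        simp
    rw [h1, integral_indicator measurableSet_Ioo, ← integral_Ioc_eq_integral_Ioo,
      ← intervalIntegral.integral_of_le hu.le,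
      intervalIntegral.integral_eq_sub_of_hasDerivAt (fun x _ => hasDerivAt_kernPrim x)
        (Continuous.intervalIntegrable (by fun_prop) _ _)]
    unfold kernPrim
    have e1 : (-(4/3) : ℝ) + 4/3 = 0 := by norm_num
    rw [e1]
    simp only [neg_zero, Real.exp_zero, add_zero]
    have e2 : u + 4/3 = 4/3 + u := by ring
    rw [e2]
    ring

theorem integrable_prod_aux (N : ℕ) (a : Fin N → ℝ) :
    Integrable (Function.uncurry (fun (x : Fin N → ℝ) (t : ℝ) =>
        (if t < ∑ i, a i * x i then (1:ℝ) else 0) * kern t * Real.exp (-∑ i, x i)))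
      ((Measure.pi (fun _ : Fin N => (volume : Measure ℝ).restrict (Set.Ioi 0))).prod volume) := by
  have hb := (integrable_exp_orthant N).mul_prod integrable_kern
  refine hb.mono' ?_ ?_
  · refine Measurable.aestronglyMeasurable ?_
    unfold Function.uncurry
    refine Measurable.mul (Measurable.mul ?_ (measurable_kern.comp measurable_snd)) (by fun_prop)
    exact Measurable.ite (measurableSet_lt measurable_snd (by fun_prop)) measurable_const
      measurable_const
  · refine Filter.Eventually.of_forall (fun z => ?_)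
    unfold Function.uncurry
    simp only
    have hk := kern_nonneg z.2
    have he := Real.exp_nonneg (-∑ i, z.1 i)
    split_ifs
    · rw [one_mul, Real.norm_eq_abs, abs_of_nonneg (mul_nonneg hk he), mul_comm]
    · rw [zero_mul, zero_mul, norm_zero]
      exact mul_nonneg he hk

/-- **Fubini identity**: the expectation of `truncExpWeight (4/3 + T)` in terms of the
survival function of `T`. -/
theorem integral_trunc_eq (N : ℕ) (a : Fin N → ℝ) :
    ∫ x in Set.pi Set.univ (fun _ : Fin N => Set.Ioi (0:ℝ)),
        Crest.AlgGeometry.truncExpWeight (4/3 + ∑ i, a i * x i) * Real.exp (-∑ i, x i)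
      = 1 - ∫ t, surv N a t * kern t := by
  rw [restrict_orthant]
  have h1 : ∀ x : Fin N → ℝ,
      Crest.AlgGeometry.truncExpWeight (4/3 + ∑ i, a i * x i) * Real.exp (-∑ i, x i)
        = Real.exp (-∑ i, x i)
          - ∫ t, (if t < ∑ i, a i * x i then (1:ℝ) else 0) * kern t * Real.exp (-∑ i, x i) := by
    intro x
    rw [integral_mul_const, integral_ind_kern]
    ring
  simp_rw [h1]
  have hint := integrable_prod_aux N a
  have hint2 : Integrable (fun x : Fin N → ℝ =>
      ∫ t, (if t < ∑ i, a i * x i then (1:ℝ) else 0) * kern t * Real.exp (-∑ i, x i))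
      (Measure.pi (fun _ : Fin N => (volume : Measure ℝ).restrict (Set.Ioi 0))) :=
    hint.integral_prod_left
  rw [integral_sub (integrable_exp_orthant N) hint2, integral_exp_orthant]
  congr 1
  rw [integral_integral_swap hint]
  refine integral_congr_ae (Filter.Eventually.of_forall (fun t => ?_))
  simp only
  rw [surv_eq, ← integral_mul_const]
  refine integral_congr_ae (Filter.Eventually.of_forall (fun x => ?_))
  simp only
  ring

end Crest.Agent.Helper2
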