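import Mathlib
import Crest.Agent.Helper2.Surv

set_option autoImplicit false

open MeasureTheory Set

namespace Crest.Agent.Helper2

/-- the product measure on the orthant -/
noncomputable abbrev orthM (N : ℕ) : Measure (Fin N → ℝ) :=
  Measure.pi (fun _ : Fin N => (volume : Measure ℝ).restrict (Set.Ioi 0))

theorem surv_nonneg (N : ℕ) (a : Fin N → ℝ) (t : ℝ) : 0 ≤ surv N a t := by
  rw [surv_eq]
  refine integral_nonneg (fun x => ?_)
  have he := Real.exp_nonneg (-∑ i, x i)
  split_ifs
  · simpa using he
  · simp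

theorem surv_le_one (N : ℕ) (a : Fin N → ℝ) (t : ℝ) : surv N a t ≤ 1 := by
  rw [surv_eq]
  refine le_of_le_of_eq
    (integral_mono (integrable_ind_mul N a t) (integrable_exp_orthant N) (fun x => ?_))
    (integral_exp_orthant N)
  have he := Real.exp_nonneg (-∑ i, x i)
  simp only
  split_ifs
  · simp
  · simpa using he

theorem surv_antitone (N : ℕ) (a : Fin N → ℝ) : Antitone (surv N a) := by
  intro s t hst
  rw [surv_eq, surv_eq]
  refine integral_mono (integrable_ind_mul N a t) (integrable_ind_mul N a s) (fun x => ?_)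
  have he := Real.exp_nonneg (-∑ i, x i)
  simp only
  by_cases h : t < ∑ i, a i * x i
  · rw [if_pos h, if_pos (lt_of_le_of_lt hst h)]
  · rw [if_neg h]
    split_ifs
    · simpa using he
    · simp

theorem surv_measurable (N : ℕ) (a : Fin N → ℝ) : Measurable (surv N a) :=
  (surv_antitone N a).measurable

theorem surv_pos (N : ℕ) (a : Fin N → ℝ) (h : ∃ i, 0 < a i) (t : ℝ) : 0 < surv N a t := by
  rw [surv_eq]
  have hnn : ∀ x : Fin N → ℝ,
      0 ≤ (if t < ∑ i, a i * x i then (1:ℝ) else 0) * Real.exp (-∑ i, x i) := by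
    intro x
    have he := Real.exp_nonneg (-∑ i, x i)
    split_ifs
    · simpa using he
    · simp
  rw [integral_pos_iff_support_of_nonneg hnn (integrable_ind_mul N a t)]
  have hsupp : Function.support (fun x : Fin N → ℝ =>
      (if t < ∑ i, a i * x i then (1:ℝ) else 0) * Real.exp (-∑ i, x i))
      = {x : Fin N → ℝ | t < ∑ i, a i * x i} := by
    ext x
    simp only [Function.mem_support, mem_ofPred_eq]
    by_cases hx : t < ∑ i, a i * x i
    · simp [hx, (Real.exp_pos _).ne']
    · simp [hx]
  rw [hsupp, ← restrict_orthant,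
    Measure.restrict_apply (measurableSet_lt measurable_const (by fun_prop))]
  apply IsOpen.measure_pos
  · exact (isOpen_lt continuous_const (by fun_prop)).inter
      (isOpen_set_pi finite_univ (fun _ _ => isOpen_Ioi))
  · obtain ⟨i, hi⟩ := h
    set K : ℝ := max 0 ((t - ∑ j, a j) / a i) + 1 with hK
    refine ⟨fun j => 1 + (if j = i then K else 0), ?_, ?_⟩
    · simp only [mem_ofPred_eq]
      have h1 : ∑ j, a j * (1 + (if j = i then K else 0)) = ∑ j, a j + a i * K := by
        simp [mul_add, Finset.sum_add_distrib]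
      rw [h1]
      have h2 : (t - ∑ j, a j) / a i < K := by
        rw [hK]
        linarith [le_max_right 0 ((t - ∑ j, a j) / a i)]
      have h3 := (div_lt_iff₀ hi).1 h2
      linarith
    · intro j _
      simp only [mem_Ioi]
      have hK0 : 0 < K := by
        rw [hK]
        linarith [le_max_left 0 ((t - ∑ j, a j) / a i)]
      split_ifs <;> linarith

/-! ### First moment -/

theorem hasDerivAt_prim0 (y : ℝ) :
    HasDerivAt (fun y : ℝ => -(1 + y) * Real.exp (-y)) (y * Real.exp (-y)) y := by
  have h3 : HasDerivAt (fun t : ℝ => -t) (-1) y := (hasDerivAt_id' y).fun_neg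
  have h1 : HasDerivAt (fun t : ℝ => -(1 + t)) (-1) y :=
    ((hasDerivAt_id' y).const_add 1).fun_neg
  have h2 : HasDerivAt (fun t : ℝ => Real.exp (-t)) (Real.exp (-y) * (-1)) y :=
    (Real.hasDerivAt_exp _).comp y h3
  exact (h1.fun_mul h2).congr_deriv (by ring)

theorem prim0_tendsto :
    Filter.Tendsto (fun y : ℝ => -(1 + y) * Real.exp (-y)) Filter.atTop (nhds 0) := by
  have h0 := Real.tendsto_pow_mul_exp_neg_atTop_nhds_zero 0
  have h1 := Real.tendsto_pow_mul_exp_neg_atTop_nhds_zero 1
  have h2 := (h0.add h1).neg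
  simp only [add_zero, neg_zero] at h2
  refine h2.congr (fun t => ?_)
  simp only [pow_zero, pow_one]
  ring

theorem integrableOn_mul_exp : IntegrableOn (fun y : ℝ => y * Real.exp (-y)) (Ioi 0) :=
  integrableOn_Ioi_deriv_of_nonneg' (fun x _ => hasDerivAt_prim0 x)
    (fun x hx => mul_nonneg (le_of_lt hx) (Real.exp_nonneg _)) prim0_tendsto

theorem integral_mul_exp : ∫ y in Ioi (0:ℝ), y * Real.exp (-y) = 1 := by
  rw [integral_Ioi_of_hasDerivAt_of_nonneg' (fun x _ => hasDerivAt_prim0 x)
    (fun y hy => mul_nonneg (le_of_lt hy) (Real.exp_nonneg _)) prim0_tendsto]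
  simp

/-- coordinate factors of `x i * exp (-∑ x)` -/
noncomputable def cf (N : ℕ) (i : Fin N) (j : Fin N) (y : ℝ) : ℝ :=
  if j = i then y * Real.exp (-y) else Real.exp (-y)

theorem coord_mul_exp_eq (N : ℕ) (i : Fin N) (x : Fin N → ℝ) :
    x i * Real.exp (-∑ j, x j) = ∏ j, cf N i j (x j) := by
  rw [exp_neg_sum]
  have : ∀ j, cf N i j (x j) = (if j = i then x j else 1) * Real.exp (-x j) := by
    intro j
    unfold cf
    split_ifs <;> simp
  simp only [this, Finset.prod_mul_distrib, Finset.prod_ite_eq', Finset.mem_univ, if_true]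

theorem integrable_cf (N : ℕ) (i j : Fin N) :
    Integrable (cf N i j) ((volume : Measure ℝ).restrict (Set.Ioi 0)) := by
  unfold cf
  by_cases h : j = i
  · simp only [if_pos h]
    exact integrableOn_mul_exp
  · simp only [if_neg h]
    exact integrableOn_exp_neg_Ioi 0

theorem integral_cf (N : ℕ) (i j : Fin N) :
    ∫ y, cf N i j y ∂((volume : Measure ℝ).restrict (Set.Ioi 0)) = 1 := by
  unfold cf
  by_cases h : j = i
  · simp only [if_pos h]
    exact integral_mul_exp
  · simp only [if_neg h]
    exact integral_exp_neg_Ioi_zero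

theorem integrable_coord_mul_exp (N : ℕ) (i : Fin N) :
    Integrable (fun x : Fin N → ℝ => x i * Real.exp (-∑ j, x j)) (orthM N) := by
  simp_rw [coord_mul_exp_eq]
  exact Integrable.fintype_prod (fun j => integrable_cf N i j)

theorem integral_coord_mul_exp (N : ℕ) (i : Fin N) :
    ∫ x : Fin N → ℝ, x i * Real.exp (-∑ j, x j) ∂(orthM N) = 1 := by
  simp_rw [coord_mul_exp_eq]
  rw [integral_fintype_prod_eq_prod (cf N i)]
  exact Finset.prod_eq_one (fun j _ => integral_cf N i j)

theorem integrable_T_mul_exp (N : ℕ) (a : Fin N → ℝ) :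
    Integrable (fun x : Fin N → ℝ => (∑ i, a i * x i) * Real.exp (-∑ j, x j)) (orthM N) := by
  simp_rw [Finset.sum_mul, mul_assoc]
  exact integrable_finsetSum _ (fun i _ => (integrable_coord_mul_exp N i).const_mul (a i))

theorem integral_T_mul_exp (N : ℕ) (a : Fin N → ℝ) :
    ∫ x : Fin N → ℝ, (∑ i, a i * x i) * Real.exp (-∑ j, x j) ∂(orthM N) = ∑ i, a i := by
  simp_rw [Finset.sum_mul, mul_assoc]
  rw [integral_finsetSum _ (fun i _ => (integrable_coord_mul_exp N i).const_mul (a i))]
  simp_rw [integral_const_mul, integral_coord_mul_exp, mul_one]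

theorem ae_orth_pos (N : ℕ) : ∀ᵐ x ∂(orthM N), ∀ i, 0 < x i := by
  have h := ae_restrict_mem (μ := (volume : Measure (Fin N → ℝ)))
    (MeasurableSet.univ_pi (fun _ : Fin N => measurableSet_Ioi (a := (0:ℝ))))
  rw [restrict_orthant] at h
  filter_upwards [h] with x hx i
  exact hx i (mem_univ i)

theorem integrable_maxT_mul_exp (N : ℕ) (a : Fin N → ℝ) :
    Integrable (fun x : Fin N → ℝ => max (∑ i, a i * x i) 0 * Real.exp (-∑ j, x j))
      (orthM N) := by
  have hg : Integrable (fun x : Fin N → ℝ => ∑ i, |a i| * (x i * Real.exp (-∑ j, x j)))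
      (orthM N) :=
    integrable_finsetSum _ (fun i _ => (integrable_coord_mul_exp N i).const_mul (|a i|))
  refine hg.mono (Measurable.aestronglyMeasurable (by fun_prop)) ?_
  filter_upwards [ae_orth_pos N] with x hx
  have he := Real.exp_nonneg (-∑ j, x j)
  have h1 : (0:ℝ) ≤ ∑ i, |a i| * x i :=
    Finset.sum_nonneg (fun i _ => mul_nonneg (abs_nonneg _) (hx i).le)
  have h2 : ∑ i, |a i| * (x i * Real.exp (-∑ j, x j))
      = (∑ i, |a i| * x i) * Real.exp (-∑ j, x j) := by
    rw [Finset.sum_mul]
    exact Finset.sum_congr rfl (fun i _ => by ring)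
  rw [Real.norm_of_nonneg (mul_nonneg (le_max_right _ _) he), h2,
    Real.norm_of_nonneg (mul_nonneg h1 he)]
  refine mul_le_mul_of_nonneg_right (max_le ?_ h1) he
  exact Finset.sum_le_sum (fun i _ => mul_le_mul_of_nonneg_right (le_abs_self _) (hx i).le)

/-! ### Layer cake via Fubini -/

theorem ind_lt_eq (u c : ℝ) :
    (fun t : ℝ => (if t < u then (1:ℝ) else 0) * c) = (Iio u).indicator (fun _ => c) := by
  funext t
  by_cases h : t < u
  · rw [if_pos h, indicator_of_mem (show t ∈ Iio u from h), one_mul]
  · rw [if_neg h, indicator_of_notMem (show t ∉ Iio u from h), zero_mul]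

theorem ind_le_eq (u c : ℝ) :
    (fun t : ℝ => (if u ≤ t then (1:ℝ) else 0) * c) = (Ici u).indicator (fun _ => c) := by
  funext t
  by_cases h : u ≤ t
  · rw [if_pos h, indicator_of_mem (show t ∈ Ici u from h), one_mul]
  · rw [if_neg h, indicator_of_notMem (show t ∉ Ici u from h), zero_mul]

theorem inner_pos (u c : ℝ) :
    ∫ t in Ioi (0:ℝ), (if t < u then (1:ℝ) else 0) * c = max u 0 * c := by
  rw [ind_lt_eq, integral_indicator_const c measurableSet_Iio, measureReal_def,
    Measure.restrict_apply measurableSet_Iio, Iio_inter_Ioi, Real.volume_Ioo,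
    ENNReal.toReal_ofReal', sub_zero, smul_eq_mul]

theorem inner_neg (u c : ℝ) :
    ∫ t in Iic (0:ℝ), (if u ≤ t then (1:ℝ) else 0) * c = max (-u) 0 * c := by
  rw [ind_le_eq, integral_indicator_const c measurableSet_Ici, measureReal_def,
    Measure.restrict_apply measurableSet_Ici, Ici_inter_Iic, Real.volume_Icc,
    ENNReal.toReal_ofReal', zero_sub, smul_eq_mul]

theorem integrable_inner_pos (u c : ℝ) :
    Integrable (fun t : ℝ => (if t < u then (1:ℝ) else 0) * c)
      ((volume : Measure ℝ).restrict (Ioi 0)) := by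
  rw [ind_lt_eq, integrable_indicator_iff measurableSet_Iio]
  refine integrableOn_const ?_
  rw [Measure.restrict_apply measurableSet_Iio, Iio_inter_Ioi, Real.volume_Ioo]
  exact ENNReal.ofReal_ne_top

theorem integrable_inner_neg (u c : ℝ) :
    Integrable (fun t : ℝ => (if u ≤ t then (1:ℝ) else 0) * c)
      ((volume : Measure ℝ).restrict (Iic 0)) := by
  rw [ind_le_eq, integrable_indicator_iff measurableSet_Ici]
  refine integrableOn_const ?_
  rw [Measure.restrict_apply measurableSet_Ici, Ici_inter_Iic, Real.volume_Icc]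
  exact ENNReal.ofReal_ne_top

theorem integrable_Fpos (N : ℕ) (a : Fin N → ℝ) :
    Integrable (Function.uncurry (fun (x : Fin N → ℝ) (t : ℝ) =>
        (if t < ∑ i, a i * x i then (1:ℝ) else 0) * Real.exp (-∑ i, x i)))
      ((orthM N).prod ((volume : Measure ℝ).restrict (Ioi 0))) := by
  have hm : Measurable (Function.uncurry (fun (x : Fin N → ℝ) (t : ℝ) =>
        (if t < ∑ i, a i * x i then (1:ℝ) else 0) * Real.exp (-∑ i, x i))) := by
    unfold Function.uncurry
    refine Measurable.mul ?_ (by fun_prop)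
    exact Measurable.ite (measurableSet_lt measurable_snd (by fun_prop)) measurable_const
      measurable_const
  rw [integrable_prod_iff hm.aestronglyMeasurable]
  constructor
  · exact Filter.Eventually.of_forall
      (fun x => integrable_inner_pos (∑ i, a i * x i) (Real.exp (-∑ i, x i)))
  · have : ∀ x : Fin N → ℝ, ∫ t in Ioi (0:ℝ), ‖Function.uncurry (fun (x : Fin N → ℝ) (t : ℝ) =>
        (if t < ∑ i, a i * x i then (1:ℝ) else 0) * Real.exp (-∑ i, x i)) (x, t)‖
        = max (∑ i, a i * x i) 0 * Real.exp (-∑ j, x j) := by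
      intro x
      rw [← inner_pos]
      refine integral_congr_ae (Filter.Eventually.of_forall (fun t => ?_))
      simp only [Function.uncurry]
      have he := Real.exp_nonneg (-∑ i, x i)
      rw [Real.norm_of_nonneg]
      split_ifs
      · simpa using he
      · simp
    simp_rw [this]
    exact integrable_maxT_mul_exp N a

theorem integrable_Fneg (N : ℕ) (a : Fin N → ℝ) :
    Integrable (Function.uncurry (fun (x : Fin N → ℝ) (t : ℝ) =>
        (if ∑ i, a i * x i ≤ t then (1:ℝ) else 0) * Real.exp (-∑ i, x i)))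
      ((orthM N).prod ((volume : Measure ℝ).restrict (Iic 0))) := by
  have hm : Measurable (Function.uncurry (fun (x : Fin N → ℝ) (t : ℝ) =>
        (if ∑ i, a i * x i ≤ t then (1:ℝ) else 0) * Real.exp (-∑ i, x i))) := by
    unfold Function.uncurry
    refine Measurable.mul ?_ (by fun_prop)
    exact Measurable.ite (measurableSet_le (by fun_prop) measurable_snd) measurable_const
      measurable_const
  rw [integrable_prod_iff hm.aestronglyMeasurable]
  constructor
  · exact Filter.Eventually.of_forall
      (fun x => integrable_inner_neg (∑ i, a i * x i) (Real.exp (-∑ i, x i)))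
  · have : ∀ x : Fin N → ℝ, ∫ t in Iic (0:ℝ), ‖Function.uncurry (fun (x : Fin N → ℝ) (t : ℝ) =>
        (if ∑ i, a i * x i ≤ t then (1:ℝ) else 0) * Real.exp (-∑ i, x i)) (x, t)‖
        = max (∑ i, (-a i) * x i) 0 * Real.exp (-∑ j, x j) := by
      intro x
      have e : ∑ i, (-a i) * x i = -∑ i, a i * x i := by
        rw [← Finset.sum_neg_distrib]
        exact Finset.sum_congr rfl (fun i _ => by ring)
      rw [e, ← inner_neg]
      refine integral_congr_ae (Filter.Eventually.of_forall (fun t => ?_))
      simp only [Function.uncurry]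
      have he := Real.exp_nonneg (-∑ i, x i)
      rw [Real.norm_of_nonneg]
      split_ifs
      · simpa using he
      · simp
    simp_rw [this]
    exact integrable_maxT_mul_exp N (fun i => -a i)

theorem one_sub_surv_eq (N : ℕ) (a : Fin N → ℝ) (t : ℝ) :
    1 - surv N a t = ∫ x : Fin N → ℝ,
      (if ∑ i, a i * x i ≤ t then (1:ℝ) else 0) * Real.exp (-∑ i, x i) ∂(orthM N) := by
  rw [surv_eq]
  have h := integral_sub (integrable_exp_orthant N) (integrable_ind_mul N a t)
  rw [integral_exp_orthant] at h
  rw [← h]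
  refine integral_congr_ae (Filter.Eventually.of_forall (fun x => ?_))
  simp only
  by_cases h : t < ∑ i, a i * x i
  · rw [if_pos h, if_neg (not_le.mpr h)]
    ring
  · rw [if_neg h, if_pos (not_lt.mp h)]
    ring

theorem surv_integrableOn_Ioi (N : ℕ) (a : Fin N → ℝ) : IntegrableOn (surv N a) (Ioi 0) := by
  have h := (integrable_Fpos N a).integral_prod_right
  refine h.congr (Filter.Eventually.of_forall (fun t => ?_))
  simp only [Function.uncurry]
  rw [surv_eq]

theorem one_sub_surv_integrableOn_Iic (N : ℕ) (a : Fin N → ℝ) :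
    IntegrableOn (fun t => 1 - surv N a t) (Iic 0) := by
  have h := (integrable_Fneg N a).integral_prod_right
  refine h.congr (Filter.Eventually.of_forall (fun t => ?_))
  simp only [Function.uncurry]
  rw [one_sub_surv_eq]

theorem integral_surv_Ioi (N : ℕ) (a : Fin N → ℝ) :
    ∫ t in Ioi (0:ℝ), surv N a t
      = ∫ x : Fin N → ℝ, max (∑ i, a i * x i) 0 * Real.exp (-∑ i, x i) ∂(orthM N) := by
  simp_rw [surv_eq]
  rw [← integral_integral_swap (integrable_Fpos N a)]
  refine integral_congr_ae (Filter.Eventually.of_forall (fun x => ?_))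
  exact inner_pos _ _

theorem integral_one_sub_surv_Iic (N : ℕ) (a : Fin N → ℝ) :
    ∫ t in Iic (0:ℝ), (1 - surv N a t)
      = ∫ x : Fin N → ℝ, max (-∑ i, a i * x i) 0 * Real.exp (-∑ i, x i) ∂(orthM N) := by
  simp_rw [one_sub_surv_eq]
  rw [← integral_integral_swap (integrable_Fneg N a)]
  refine integral_congr_ae (Filter.Eventually.of_forall (fun x => ?_))
  exact inner_neg _ _

/-- **Mean identity** (layer cake). -/
theorem surv_mean (N : ℕ) (a : Fin N → ℝ) :
    (∫ t in Ioi (0:ℝ), surv N a t) - ∫ t in Iic (0:ℝ), (1 - surv N a t) = ∑ i, a i := by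
  rw [integral_surv_Ioi, integral_one_sub_surv_Iic, ← integral_T_mul_exp N a]
  have h2 : Integrable (fun x : Fin N → ℝ => max (-∑ i, a i * x i) 0 * Real.exp (-∑ j, x j))
      (orthM N) := by
    have h := integrable_maxT_mul_exp N (fun i => -a i)
    refine h.congr (Filter.Eventually.of_forall (fun x => ?_))
    have e : ∑ i, (-a i) * x i = -∑ i, a i * x i := by
      rw [← Finset.sum_neg_distrib]
      exact Finset.sum_congr rfl (fun i _ => by ring)
    simp only [e]
  rw [← integral_sub (integrable_maxT_mul_exp N a) h2]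
  refine integral_congr_ae (Filter.Eventually.of_forall (fun x => ?_))
  simp only
  rw [← sub_mul]
  congr 1
  rcases le_total 0 (∑ i, a i * x i) with h | h
  · rw [max_eq_left h, max_eq_right (by linarith)]
    ring
  · rw [max_eq_right h, max_eq_left (by linarith)]
    ring

end Crest.Agent.Helper2
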